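import Mathlib

/-! P321 (helper474): two elementary lemmas on complex numbers used by the step of ExpLogSix. -/

namespace Vale.Agent.P321.R3.H474

open ComplexConjugate

/-- If a, b, c have norm one and a * conj b * conj c is near 1 then a is near b * c. -/
theorem near_of_unit {a b c : ℂ} {d : ℝ} (hb : ‖b‖ = 1) (hc : ‖c‖ = 1)
    (h : ‖a * conj b * conj c - 1‖ ≤ d) : ‖a - b * c‖ ≤ d := by
  have hbb : conj b * b = 1 := by
    rw [mul_comm, Complex.mul_conj, Complex.normSq_eq_norm_sq, hb]; norm_num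
  have hcc : conj c * c = 1 := by
    rw [mul_comm, Complex.mul_conj, Complex.normSq_eq_norm_sq, hc]; norm_num
  have e : a - b * c = (a * conj b * conj c - 1) * (b * c) := by
    have : (a * conj b * conj c - 1) * (b * c) = a * (conj b * b) * (conj c * c) - b * c := by ring
    rw [this, hbb, hcc]; ring
  rw [e, norm_mul, norm_mul, hb, hc, mul_one, mul_one]
  exact h

/-- Linking lemma: two products of units compared through a common pair y, f. -/
theorem link {x e y f c x' e' c' : ℂ} {d : ℝ} (he : ‖e‖ = 1) (hy : ‖y‖ = 1)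
    (hc : ‖c‖ = 1) (he' : ‖e'‖ = 1) (hc' : ‖c'‖ = 1)
    (h1 : ‖x * conj y * conj c - 1‖ ≤ d) (h2 : ‖f * conj e * conj c - 1‖ ≤ d)
    (h3 : ‖x' * conj y * conj c' - 1‖ ≤ d) (h4 : ‖f * conj e' * conj c' - 1‖ ≤ d) :
    ‖x * e - x' * e'‖ ≤ 4 * d := by
  have a1 := near_of_unit hy hc h1
  have a2 := near_of_unit he hc h2
  have a3 := near_of_unit hy hc' h3
  have a4 := near_of_unit he' hc' h4
  have e0 : x * e - x' * e' = (x - y * c) * e - y * (f - e * c) - (x' - y * c') * e'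
      + y * (f - e' * c') := by ring
  have b1 : ‖(x - y * c) * e‖ ≤ d := by rw [norm_mul, he, mul_one]; exact a1
  have b2 : ‖y * (f - e * c)‖ ≤ d := by rw [norm_mul, hy, one_mul]; exact a2
  have b3 : ‖(x' - y * c') * e'‖ ≤ d := by rw [norm_mul, he', mul_one]; exact a3
  have b4 : ‖y * (f - e' * c')‖ ≤ d := by rw [norm_mul, hy, one_mul]; exact a4
  rw [e0]
  calc ‖(x - y * c) * e - y * (f - e * c) - (x' - y * c') * e' + y * (f - e' * c')‖
      ≤ ‖(x - y * c) * e - y * (f - e * c) - (x' - y * c') * e'‖ + ‖y * (f - e' * c')‖ :=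
        norm_add_le _ _
    _ ≤ (‖(x - y * c) * e - y * (f - e * c)‖ + ‖(x' - y * c') * e'‖) + ‖y * (f - e' * c')‖ := by
        gcongr; exact norm_sub_le _ _
    _ ≤ ((‖(x - y * c) * e‖ + ‖y * (f - e * c)‖) + ‖(x' - y * c') * e'‖)
          + ‖y * (f - e' * c')‖ := by
        gcongr; exact norm_sub_le _ _
    _ ≤ ((d + d) + d) + d := by gcongr
    _ = 4 * d := by ring

/-- Two complex numbers with nearly equal moduli and nearly equal phases are close. -/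
theorem close_of_polar {z w : ℂ} {rho : ℝ} (hz : z ≠ 0) (hw : w ≠ 0) (hrho : 0 < rho)
    (h1 : |‖z‖ - ‖w‖| ≤ rho * max ‖z‖ ‖w‖ / 2)
    (h2 : ‖(w / (‖w‖ : ℂ)) * conj (z / (‖z‖ : ℂ)) - 1‖ ≤ rho / 4) :
    ‖z - w‖ < rho * max ‖z‖ ‖w‖ := by
  have hz0 : 0 < ‖z‖ := norm_pos_iff.mpr hz
  have hw0 : 0 < ‖w‖ := norm_pos_iff.mpr hw
  have hm : 0 < max ‖z‖ ‖w‖ := lt_of_lt_of_le hz0 (le_max_left _ _)
  set p : ℂ := z / (‖z‖ : ℂ) with hp
  set q : ℂ := w / (‖w‖ : ℂ) with hq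
  have hp1 : ‖p‖ = 1 := by
    rw [hp, norm_div, Complex.norm_real, norm_norm, div_self hz0.ne']
  have hq1 : ‖q‖ = 1 := by
    rw [hq, norm_div, Complex.norm_real, norm_norm, div_self hw0.ne']
  have hzc : (‖z‖ : ℂ) ≠ 0 := by exact_mod_cast hz0.ne'
  have hwc : (‖w‖ : ℂ) ≠ 0 := by exact_mod_cast hw0.ne'
  have hzp : z = (‖z‖ : ℂ) * p := by
    rw [hp, mul_div_cancel₀ _ hzc]
  have hwq : w = (‖w‖ : ℂ) * q := by
    rw [hq, mul_div_cancel₀ _ hwc]
  have hpq : ‖q - p‖ ≤ rho / 4 := by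
    have h3 : ‖q * conj p * conj (1 : ℂ) - 1‖ ≤ rho / 4 := by simpa using h2
    have := near_of_unit (a := q) (b := p) (c := 1) hp1 (by simp) h3
    simpa using this
  have e : z - w = (((‖z‖ - ‖w‖ : ℝ)) : ℂ) * p - (‖w‖ : ℂ) * (q - p) := by
    conv_lhs => rw [hzp, hwq]
    push_cast
    ring
  have hwm : ‖w‖ ≤ max ‖z‖ ‖w‖ := le_max_right _ _
  have c1 : ‖(((‖z‖ - ‖w‖ : ℝ)) : ℂ) * p‖ = |‖z‖ - ‖w‖| := by
    rw [norm_mul, hp1, mul_one, Complex.norm_real, Real.norm_eq_abs]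
  have c2 : ‖(‖w‖ : ℂ) * (q - p)‖ ≤ max ‖z‖ ‖w‖ * (rho / 4) := by
    rw [norm_mul, Complex.norm_real, norm_norm]
    exact mul_le_mul hwm hpq (norm_nonneg _) hm.le
  have c3 : ‖z - w‖ ≤ rho * max ‖z‖ ‖w‖ / 2 + max ‖z‖ ‖w‖ * (rho / 4) := by
    rw [e]
    refine (norm_sub_le _ _).trans ?_
    rw [c1]
    exact add_le_add h1 c2
  have c4 : 0 < rho * max ‖z‖ ‖w‖ := mul_pos hrho hm
  nlinarith [c3, c4]

end Vale.Agent.P321.R3.H474
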